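import Vale.Agent.P092.RC.Trans
import Vale.Agent.P092.H34.Ind
import Vale.Agent.P092.H962.MT4

/-!
P092, all amplifications (helper958): the flip of the two legs, any group, any fibre; the flip of
the model `HH (PT α α α)`.
-/

set_option linter.all false

open scoped InnerProductSpace ENNReal
open Filter Topology ContinuousLinearMap MeasureTheory

namespace Vale.Agent.P092.SDT

open Vale.Agent.P092.RC (cj cj_ap Cm)
open Vale.Agent.P092.H790 (CData)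
open Vale.Agent.P092.H34

section con

variable {D Λ Γ : Type} [Group D] [Group Λ] [Countable Λ] [Group Γ] (d : CData D Λ) {ℋ : Type}
  [NormedAddCommGroup ℋ] [InnerProductSpace ℂ ℋ] [CompleteSpace ℋ] {s : ℋ →L[ℂ] ℋ}

theorem sq_comp (hs : s * s = 1) :
    s.compLpL 2 d.μ * s.compLpL 2 d.μ = (1 : Lp ℋ 2 d.μ →L[ℂ] Lp ℋ 2 d.μ) := by
  rw [← H790.comp_mul, hs, H790.comp_one]

theorem ap_sq (hs : s * s = 1) (ξ : Lp ℋ 2 d.μ) : s.compLpL 2 d.μ (s.compLpL 2 d.μ ξ) = ξ :=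
  congrArg (fun T : Lp ℋ 2 d.μ →L[ℂ] Lp ℋ 2 d.μ => T ξ) (sq_comp d hs)

theorem adj_comp (ha : adjoint s = s) : adjoint (s.compLpL 2 d.μ) = s.compLpL 2 d.μ := by
  rw [H790.comp_adjoint, ha]

/-- the flip as a unitary -/
noncomputable def flS (s : ℋ →L[ℂ] ℋ) (hs : s * s = 1) (ha : adjoint s = s) :
    Lp ℋ 2 d.μ ≃ₗᵢ[ℂ] Lp ℋ 2 d.μ :=
  LinearIsometryEquiv.mk
    (LinearEquiv.mk (s.compLpL 2 d.μ : Lp ℋ 2 d.μ →ₗ[ℂ] Lp ℋ 2 d.μ) (s.compLpL 2 d.μ)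
      (ap_sq d hs) (ap_sq d hs))
    (fun ξ => by
      have h1 : ⟪s.compLpL 2 d.μ ξ, s.compLpL 2 d.μ ξ⟫_ℂ = ⟪ξ, ξ⟫_ℂ := by
        rw [← adjoint_inner_right, adj_comp d ha, ap_sq d hs]
      rw [inner_self_eq_norm_sq_to_K, inner_self_eq_norm_sq_to_K] at h1
      have h2 : ‖s.compLpL 2 d.μ ξ‖ ^ 2 = ‖ξ‖ ^ 2 := by exact_mod_cast h1
      exact (pow_left_inj₀ (norm_nonneg _) (norm_nonneg _) two_ne_zero).mp h2)

variable (hs : s * s = 1) (ha : adjoint s = s)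

theorem cj_flS (T : Lp ℋ 2 d.μ →L[ℂ] Lp ℋ 2 d.μ) :
    cj (flS d s hs ha) T = s.compLpL 2 d.μ * T * s.compLpL 2 d.μ := rfl

theorem cj_cj_flS (T : Lp ℋ 2 d.μ →L[ℂ] Lp ℋ 2 d.μ) :
    cj (flS d s hs ha) (cj (flS d s hs ha) T) = T := by
  rw [cj_flS, cj_flS]
  calc _ = (s.compLpL 2 d.μ * s.compLpL 2 d.μ) * T * (s.compLpL 2 d.μ * s.compLpL 2 d.μ) := by
        simp only [mul_assoc]
    _ = T := by rw [sq_comp d hs, one_mul, mul_one]

theorem cj_pi {V : Λ →* (ℋ →L[ℂ] ℋ)} (hV : ∀ v, adjoint (V v) = V v⁻¹)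
    (sV : ∀ v, s * V v = V v * s) (g : D) :
    cj (flS d s hs ha) (Ind.pi d hV g) = Ind.pi d hV g := by
  have h3 : Ind.pi d hV g * s.compLpL 2 d.μ = s.compLpL 2 d.μ * Ind.pi d hV g :=
    Ind.pi_comp d hV g sV
  rw [cj_flS]
  calc _ = s.compLpL 2 d.μ * (Ind.pi d hV g * s.compLpL 2 d.μ) := mul_assoc _ _ _
    _ = s.compLpL 2 d.μ * (s.compLpL 2 d.μ * Ind.pi d hV g) := by rw [h3]
    _ = _ := by rw [← mul_assoc, sq_comp d hs, one_mul]

theorem cj_lam {R R' : Γ →* (ℋ →L[ℂ] ℋ)} (h : ∀ g, s * R g = R' g * s) (g : Γ) :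
    cj (flS d s hs ha) (Ind.lam d R g) = Ind.lam d R' g := by
  have h1 : s * R g * s = R' g := by rw [h, mul_assoc, hs, mul_one]
  rw [cj_flS]
  change s.compLpL 2 d.μ * (R g).compLpL 2 d.μ * s.compLpL 2 d.μ = (R' g).compLpL 2 d.μ
  rw [← h1, H790.comp_mul, H790.comp_mul]

theorem cj_ind {S : Set d.X} (hS : MeasurableSet S) :
    cj (flS d s hs ha) (H790.ind d.μ ℋ S) = H790.ind d.μ ℋ S := by
  rw [cj_flS, H790.ind_comp hS, mul_assoc, sq_comp d hs, mul_one]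

theorem cj_image {X : Set (Lp ℋ 2 d.μ →L[ℂ] Lp ℋ 2 d.μ)}
    (hX : ∀ T ∈ X, ∃ S, MeasurableSet S ∧ T = H790.ind d.μ ℋ S) :
    cj (flS d s hs ha) '' X = X := by
  ext T
  constructor
  · rintro ⟨w, hw, rfl⟩
    obtain ⟨S, hS, rfl⟩ := hX _ hw
    rwa [cj_ind d hs ha hS]
  · intro hT
    obtain ⟨S, hS, rfl⟩ := hX _ hT
    exact ⟨_, hT, cj_ind d hs ha hS⟩

theorem cj_range {R R' : Γ →* (ℋ →L[ℂ] ℋ)} (h : ∀ g, s * R g = R' g * s) :
    cj (flS d s hs ha) '' (Set.range (Ind.lam d R)) = Set.range (Ind.lam d R') := by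
  rw [← Set.range_comp]
  congr 1
  exact funext fun g => cj_lam d hs ha h g

end con

/-! ### The model -/

section model

open Vale.Agent.P092.H103 Vale.Agent.P092.H160 Vale.Agent.P092.H962

variable {Γ Λ I : Type} [Group Γ] [Group Λ] [Fintype I]
  {α : Γ → (Ell2 (I × Λ) →L[ℂ] Ell2 (I × Λ))} (hα : AF α)

/-- the flip of the model -/
noncomputable def sT : HH (PT α α α) →L[ℂ] HH (PT α α α) :=
  (LinearIsometry.mk
    { toFun := swU (β := α) (γ := α) hα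
      map_add' := (swap_AU (β := α) (γ := α) hα).add
      map_smul' := (swap_AU (β := α) (γ := α) hα).smul }
    (swap_AU (β := α) (γ := α) hα).norm : HH (PT α α α) →ₗᵢ[ℂ] HH (PT α α α)).toContinuousLinearMap

theorem sT_ap (w : HH (PT α α α)) : sT hα w = swU hα w := rfl

theorem sT_sq : sT hα * sT hα = 1 :=
  ContinuousLinearMap.ext fun w => (swap_AU (β := α) (γ := α) hα).inv w

theorem sT_adj : adjoint (sT hα) = sT hα := by
  symm
  rw [ContinuousLinearMap.eq_adjoint_iff]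
  intro x y
  have h1 : ⟪sT hα (sT hα x), sT hα y⟫_ℂ = ⟪sT hα x, y⟫_ℂ :=
    (swap_AU (β := α) (γ := α) hα).inn (sT hα x) y
  have h2 : sT hα (sT hα x) = x :=
    congrArg (fun T : HH (PT α α α) →L[ℂ] HH (PT α α α) => T x) (sT_sq hα)
  rw [← h1, h2]

theorem sT_V (g : Γ) : sT hα * V3 hα hα hα g = V3 hα hα hα g * sT hα :=
  ContinuousLinearMap.ext fun w => swU_V hα hα hα g w

theorem sT_A (g : Γ) : sT hα * A3R hα hα hα g = B3R hα hα hα g * sT hα :=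
  ContinuousLinearMap.ext fun w => swU_A hα hα hα g w

theorem sT_B (g : Γ) : sT hα * B3R hα hα hα g = A3R hα hα hα g * sT hα :=
  ContinuousLinearMap.ext fun w => swU_B hα hα hα g w

end model

end Vale.Agent.P092.SDT
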