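import Vale.Agent.P092.SD.Tw
import Vale.Agent.P092.H958.AmpD

/-!
P092, TEAM D, all amplifications (helper958): transport of the classical leg `SD.Cls` along a
unitary and along `K ⊗ ℂ^Q`, in both directions.
-/

set_option linter.all false

open scoped InnerProductSpace ENNReal LinearAlgebra.Projectivization ZeroAtInfty
open Filter Topology ContinuousLinearMap MeasureTheory TopologicalSpace

namespace Vale.Agent.P092.SD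

open Vale.Agent.P092.RC Vale.Agent.P092.H333.Amp

/-! ### Along a unitary -/

section tw

variable {k : Type} [NontriviallyNormedField k] [ProperSpace k] {K K' : Type}
  [NormedAddCommGroup K] [InnerProductSpace ℂ K] [CompleteSpace K]
  [NormedAddCommGroup K'] [InnerProductSpace ℂ K'] [CompleteSpace K']

/-- conjugation of a calculus of `C₀` -/
noncomputable def cjQ (u : K ≃ₗᵢ[ℂ] K') (P : C₀(G3 k, ℂ) →⋆ₙₐ[ℂ] (K →L[ℂ] K)) :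
    C₀(G3 k, ℂ) →⋆ₙₐ[ℂ] (K' →L[ℂ] K') :=
  (cjH u : (K →L[ℂ] K) →⋆ₙₐ[ℂ] (K' →L[ℂ] K')).comp P

theorem cjQ_ap (u : K ≃ₗᵢ[ℂ] K') (P : C₀(G3 k, ℂ) →⋆ₙₐ[ℂ] (K →L[ℂ] K)) (ψ : C₀(G3 k, ℂ)) :
    cjQ u P ψ = cj u (P ψ) := rfl

variable {u : K ≃ₗᵢ[ℂ] K'} {Γ : Type} [Group Γ]
  {π : G3 k →* (K →L[ℂ] K)} {lam : Γ →* (K →L[ℂ] K)} {W : Set (K →L[ℂ] K)}
  {π' : G3 k →* (K' →L[ℂ] K')} {lam' : Γ →* (K' →L[ℂ] K')}
  {W' : Set (K' →L[ℂ] K')} {q : Γ →* G3 k} {E F : PP k → (CP k →⋆ₐ[ℂ] (K →L[ℂ] K))}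
  {P : C₀(G3 k, ℂ) →⋆ₙₐ[ℂ] (K →L[ℂ] K)}

theorem tw_cls (hπ : ∀ g, π' g = cj u (π g)) (hl : ∀ g, lam' g = cj u (lam g))
    (hW : W' = cj u '' W) (h : Cls π lam W q E F P) :
    Cls π' lam' W' q (fun a => cjE u (E a)) (fun a => cjE u (F a)) (cjQ u P) where
  nd ξ hξ := by
    obtain ⟨η, rfl⟩ := surj_vec u ξ
    rw [h.nd η fun ψ => ?_, map_zero]
    have h1 := hξ ψ
    rw [cjQ_ap, cj_ap] at h1
    exact u.injective (h1.trans (map_zero u).symm)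
  cm ψ := by
    rw [hW, cjQ_ap]
    exact (cm_cj u).2 (h.cm ψ)
  cov γ ψ ψ' hψ := by rw [cjQ_ap, cjQ_ap, hl, hl, ← map_mul, ← map_mul, h.cov γ ψ ψ' hψ]
  pcov g ψ ψ' hψ := by rw [cjQ_ap, cjQ_ap, hπ, hπ, ← map_mul, ← map_mul, h.pcov g ψ ψ' hψ]
  mulE a f ψ ψ' hψ := by rw [cjQ_ap, cjQ_ap, cjE_ap, ← map_mul, h.mulE a f ψ ψ' hψ]
  mulF a f ψ ψ' hψ := by rw [cjQ_ap, cjQ_ap, cjE_ap, ← map_mul, h.mulF a f ψ ψ' hψ]

end tw

/-! ### Along the amplification -/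

section amp

variable {k : Type} [NontriviallyNormedField k] [ProperSpace k] {Γ K B : Type}
  [Group Γ] [NormedAddCommGroup K] [InnerProductSpace ℂ K] [CompleteSpace K] [Group B] [Fintype B]

/-- `P ⊗ 1` -/
noncomputable def ampQ (B : Type) [Group B] [Fintype B] (P : C₀(G3 k, ℂ) →⋆ₙₐ[ℂ] (K →L[ℂ] K)) :
    C₀(G3 k, ℂ) →⋆ₙₐ[ℂ] (KT B K →L[ℂ] KT B K) :=
  (ampS B K : (K →L[ℂ] K) →⋆ₙₐ[ℂ] (KT B K →L[ℂ] KT B K)).comp P

theorem ampQ_ap (P : C₀(G3 k, ℂ) →⋆ₙₐ[ℂ] (K →L[ℂ] K)) (ψ : C₀(G3 k, ℂ)) :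
    ampQ B P ψ = H333.Amp.amp (P ψ) := rfl

variable {π : G3 k →* (K →L[ℂ] K)} {lam : Γ →* (K →L[ℂ] K)} {W : Set (K →L[ℂ] K)}
  {q : Γ →* G3 k} {E F : PP k → (CP k →⋆ₐ[ℂ] (K →L[ℂ] K))}

theorem Cls.amp {P : C₀(G3 k, ℂ) →⋆ₙₐ[ℂ] (K →L[ℂ] K)} (h : Cls π lam W q E F P) :
    Cls (ampH B π) (ampH B lam) (ampW B W) q (fun a => ampE B (E a)) (fun a => ampE B (F a))
      (ampQ B P) where
  nd ξ hξ := by
    refine ext_co fun j => ?_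
    rw [h.nd (ξ j) fun ψ => ?_]
    · rfl
    · have h1 := congrArg (fun v : KT B K => v j) (hξ ψ)
      exact h1
  cm ψ := cm_amp (h.cm ψ)
  cov γ ψ ψ' hψ := by
    rw [ampQ_ap, ampQ_ap, ampH_ap, ampH_ap, ← amp_mul, ← amp_mul, h.cov γ ψ ψ' hψ]
  pcov g ψ ψ' hψ := by
    rw [ampQ_ap, ampQ_ap, ampH_ap, ampH_ap, ← amp_mul, ← amp_mul, h.pcov g ψ ψ' hψ]
  mulE a f ψ ψ' hψ := by rw [ampQ_ap, ampQ_ap, ampE_ap, ← amp_mul, h.mulE a f ψ ψ' hψ]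
  mulF a f ψ ψ' hψ := by rw [ampQ_ap, ampQ_ap, ampE_ap, ← amp_mul, h.mulF a f ψ ψ' hψ]

/-- **Back from the amplification.** -/
theorem Cls.unamp {P : C₀(G3 k, ℂ) →⋆ₙₐ[ℂ] (KT B K →L[ℂ] KT B K)}
    (h : Cls (ampH B π) (ampH B lam) (ampW B W) q (fun a => ampE B (E a))
      (fun a => ampE B (F a)) P) :
    ∃ P' : C₀(G3 k, ℂ) →⋆ₙₐ[ℂ] (K →L[ℂ] K), Cls π lam W q E F P' := by
  have e₁ : ∀ ψ, ∃ T, P ψ = H333.Amp.amp T ∧ Cm W T := fun ψ => cm_ampW.1 (h.cm ψ)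
  choose T hT hc using e₁
  refine ⟨
    { toFun := T
      map_smul' := fun c ψ => amp_inj (Q := B) (by
        rw [← hT, map_smul, hT, amp_smul]; rfl)
      map_zero' := amp_inj (Q := B) (by rw [← hT, map_zero, amp_zero])
      map_add' := fun ψ φ => amp_inj (Q := B) (by rw [← hT, map_add, hT, hT, amp_add])
      map_mul' := fun ψ φ => amp_inj (Q := B) (by rw [← hT, map_mul, hT, hT, amp_mul])
      map_star' := fun ψ => amp_inj (Q := B) (by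
        rw [← hT, map_star, hT, star_eq_adjoint, star_eq_adjoint, adjoint_amp]) }, ?_⟩
  refine ⟨fun ξ hξ => ?_, hc, fun γ ψ ψ' hψ => ?_, fun g ψ ψ' hψ => ?_, fun a f ψ ψ' hψ => ?_,
    fun a f ψ ψ' hψ => ?_⟩
  · have h1 : em (1 : B) ξ = 0 := h.nd _ fun ψ => by
      have h2 : T ψ ξ = 0 := hξ ψ
      rw [hT, amp_em, h2, map_zero]
    have h2 := norm_em (1 : B) ξ
    rw [h1, norm_zero] at h2
    exact norm_eq_zero.1 h2.symm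
  · have h1 := h.cov γ ψ ψ' hψ
    rw [hT, hT, ampH_ap, ampH_ap, ← amp_mul, ← amp_mul] at h1
    exact amp_inj h1
  · have h1 := h.pcov g ψ ψ' hψ
    rw [hT, hT, ampH_ap, ampH_ap, ← amp_mul, ← amp_mul] at h1
    exact amp_inj h1
  · have h1 := h.mulE a f ψ ψ' hψ
    rw [hT, hT, ampE_ap, ← amp_mul] at h1
    exact amp_inj h1
  · have h1 := h.mulF a f ψ ψ' hψ
    rw [hT, hT, ampE_ap, ← amp_mul] at h1
    exact amp_inj h1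

end amp

end Vale.Agent.P092.SD
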