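import Vale.Agent.P092.H34.AmpF
import Vale.Agent.P092.H958.AmpD

/-!
P092, all amplifications (helper958): (TV) for a fibre with a finite Parseval family.
-/

set_option linter.all false

open scoped InnerProductSpace ENNReal
open Filter Topology ContinuousLinearMap MeasureTheory

namespace Vale.Agent.P092.SDT

open Vale.Agent.P092.RC Vale.Agent.P092.H790 Vale.Agent.P092.H85 Vale.Agent.P092.H103
  Vale.Agent.P092.H34 Vale.Agent.P092.H34.Ind Vale.Agent.P092.H34.AmpE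

section tv

variable {E : Type} [Group E] [TopologicalSpace E] [IsTopologicalGroup E] [LocallyCompactSpace E]
  [SecondCountableTopology E] [T2Space E] [MeasurableSpace E] [BorelSpace E]
  {Λ : Subgroup E} [DiscreteTopology Λ] [Countable Λ] [MeasurableSpace (E ⧸ Λ)]
  [BorelSpace (E ⧸ Λ)] {ν : Measure (E ⧸ Λ)} [IsProbabilityMeasure ν]
  (hν : ∀ g : E, ν.map (fun x => g • x) = ν)
  {ℋ : Type} [NormedAddCommGroup ℋ] [InnerProductSpace ℂ ℋ] [CompleteSpace ℋ]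
  {V R₁ R₂ : Λ →* (ℋ →L[ℂ] ℋ)} (hV : ∀ v, adjoint (V v) = V v⁻¹)
  {I : Type} [Countable I] (b : HilbertBasis I ℂ ℋ) {ι : Type} [Fintype ι] {ξ : ι → ℋ}
  (h : SR.Tri V R₁ R₂ ξ)

theorem sum_real {κ K : Type} [Fintype κ] [NormedAddCommGroup K] (f : κ → K) :
    (∑ i, ‖f i‖ₑ ^ 2 : ℝ≥0∞) = ENNReal.ofReal (∑ i, ‖f i‖ ^ 2) := by
  rw [ENNReal.ofReal_sum_of_nonneg fun i _ => sq_nonneg _]
  exact Finset.sum_congr rfl fun i _ => H421.Hs.enn_sq' _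

theorem aa_one {D Δ : Type} [Group D] [Group Δ] [Countable Δ] {d : CData D Δ}
    {sc : Set (ℋ →L[ℂ] ℋ)} : AA d sc (1 : Lp ℋ 2 d.μ →L[ℂ] Lp ℋ 2 d.μ) := fun w _ => by
  rw [one_mul, mul_one]

theorem aa_smul {D Δ : Type} [Group D] [Group Δ] [Countable Δ] {d : CData D Δ}
    {sc : Set (ℋ →L[ℂ] ℋ)} {T : Lp ℋ 2 d.μ →L[ℂ] Lp ℋ 2 d.μ} (hT : AA d sc T) (c : ℂ) :
    AA d sc (c • T) := fun w hw => by
  rw [smul_mul_assoc, mul_smul_comm, hT w hw]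

include b h in
/-- **(TV)** for the constant fields of a Parseval family. -/
theorem tv_cst {Y : Lp ℋ 2 (cdat ν hν).μ →L[ℂ] Lp ℋ 2 (cdat ν hν).μ}
    (hY : Cm (Xset (cdat ν hν) ℋ ∪ Set.range (Ind.lam (cdat ν hν) R₂)) Y)
    (h1 : ∀ γ, Y * Ind.lam (cdat ν hν) R₁ γ = Ind.lam (cdat ν hν) R₁ γ * Y) (g : E) :
    ∑ i, ⟪Ind.pi (cdat ν hν) hV g (cst (cdat ν hν) ξ i),
        Y (Ind.pi (cdat ν hν) hV g (cst (cdat ν hν) ξ i))⟫_ℂ =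
      ∑ i, ⟪cst (cdat ν hν) ξ i, Y (cst (cdat ν hν) ξ i)⟫_ℂ := by
  refine sum_inner_eq fun c => ?_
  have hA : AA (cdat ν hν) (Set.range (two R₁ R₂ h.comm₁₂))
      ((1 : Lp ℋ 2 (cdat ν hν).μ →L[ℂ] Lp ℋ 2 (cdat ν hν).μ) + c • Y) :=
    aa_one.add (aa_smul (aa_two hν h.comm₁₂ hY h1) c)
  have h2 := trnf_conj (d := cdat ν hν) hV b (two_adj h.comm₁₂ h.adj₁ h.adj₂) (frq_two h)
    (fun v p => two_comm h.comm₁₂ (h.comm₁ v) (h.comm₂ v) p) hA g⁻¹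
  have h3 : ∀ T : Lp ℋ 2 (cdat ν hν).μ →L[ℂ] Lp ℋ 2 (cdat ν hν).μ,
      TRNF (1 : Unit →* (Lp ℋ 2 (cdat ν hν).μ →L[ℂ] Lp ℋ 2 (cdat ν hν).μ))
        (cst (cdat ν hν) ξ) T = ENNReal.ofReal (∑ i, ‖T (cst (cdat ν hν) ξ i)‖ ^ 2) := by
    intro T
    rw [← sum_real, TRNF]
    refine Finset.sum_congr rfl fun i _ => ?_
    rw [TRN, tsum_fintype, Fintype.sum_unique]
    rfl
  rw [h3, h3] at h2
  have h4 := (ENNReal.ofReal_eq_ofReal_iff (Finset.sum_nonneg fun i _ => sq_nonneg _)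
    (Finset.sum_nonneg fun i _ => sq_nonneg _)).1 h2
  rw [← h4]
  refine Finset.sum_congr rfl fun i _ => ?_
  congr 1
  rw [inv_inv]
  change _ = ‖Ind.pi (cdat ν hν) hV g⁻¹ (((1 : Lp ℋ 2 (cdat ν hν).μ →L[ℂ] Lp ℋ 2 (cdat ν hν).μ) +
    c • Y) (Ind.pi (cdat ν hν) hV g (cst (cdat ν hν) ξ i)))‖
  rw [norm_map_of_adj (adjoint_pi (cdat ν hν) hV)]

include b h in
/-- **(TV)** for the normalised family. -/
theorem tv_tri {Y : Lp ℋ 2 (cdat ν hν).μ →L[ℂ] Lp ℋ 2 (cdat ν hν).μ}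
    (hY : Cm (Xset (cdat ν hν) ℋ ∪ Set.range (Ind.lam (cdat ν hν) R₂)) Y)
    (h1 : ∀ γ, Y * Ind.lam (cdat ν hν) R₁ γ = Ind.lam (cdat ν hν) R₁ γ * Y) (g : E) :
    ∑ i, ⟪Ind.pi (cdat ν hν) hV g (nrm hν ξ i), Y (Ind.pi (cdat ν hν) hV g (nrm hν ξ i))⟫_ℂ =
      ∑ i, ⟪nrm hν ξ i, Y (nrm hν ξ i)⟫_ℂ := by
  obtain ⟨s, hs⟩ : ∃ s : ℂ, s = (((Real.sqrt (∑ j, ‖ξ j‖ ^ 2))⁻¹ : ℝ) : ℂ) := ⟨_, rfl⟩
  have h2 : ∀ i, nrm hν ξ i = s • cst (cdat ν hν) ξ i := by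
    intro i
    have h3 : nrm hν ξ i = Lp.const 2 (cdat ν hν).μ (s • ξ i) := by rw [hs]; rfl
    rw [h3]
    exact map_smul (Lp.constL 2 (cdat ν hν).μ ℂ) s (ξ i)
  have h4 : ∀ T : Lp ℋ 2 (cdat ν hν).μ →L[ℂ] Lp ℋ 2 (cdat ν hν).μ, ∀ u,
      ⟪T (s • u), Y (T (s • u))⟫_ℂ = (starRingEnd ℂ) s * s * ⟪T u, Y (T u)⟫_ℂ := by
    intro T u
    rw [map_smul, map_smul, inner_smul_left, inner_smul_right, mul_assoc]
  have h5 := tv_cst hν hV b h hY h1 g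
  simp_rw [h2]
  have h6 : ∀ i, ⟪s • cst (cdat ν hν) ξ i, Y (s • cst (cdat ν hν) ξ i)⟫_ℂ =
      (starRingEnd ℂ) s * s * ⟪cst (cdat ν hν) ξ i, Y (cst (cdat ν hν) ξ i)⟫_ℂ := fun i =>
    h4 1 _
  simp_rw [h4, h6]
  rw [← Finset.mul_sum, ← Finset.mul_sum, h5]

end tv

section g3

open Vale.Agent.P092.SD

variable {k : Type} [NontriviallyNormedField k] [ProperSpace k] [LocallyCompactSpace (G3 k)]
  [SecondCountableTopology (G3 k)] [MeasurableSpace (G3 k)] [BorelSpace (G3 k)]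
  {Λ : Subgroup (G3 k)} [DiscreteTopology Λ] [Countable Λ] [MeasurableSpace (G3 k ⧸ Λ)]
  [BorelSpace (G3 k ⧸ Λ)] {ν : Measure (G3 k ⧸ Λ)} [IsProbabilityMeasure ν]
  (hν : ∀ g : G3 k, ν.map (fun x => g • x) = ν)
  {ℋ : Type} [NormedAddCommGroup ℋ] [InnerProductSpace ℂ ℋ] [CompleteSpace ℋ]
  {V R₁ R₂ : Λ →* (ℋ →L[ℂ] ℋ)} (hV : ∀ v, adjoint (V v) = V v⁻¹)
  {I : Type} [Countable I] (b : HilbertBasis I ℂ ℋ) {ι : Type} [Fintype ι] {ξ : ι → ℋ}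

include b in
theorem tvf_tri (h : SR.Tri V R₁ R₂ ξ) :
    TVF (Ind.pi (cdat ν hν) hV) (Ind.lam (cdat ν hν) R₁)
      (Xset (cdat ν hν) ℋ ∪ Set.range (Ind.lam (cdat ν hν) R₂)) (nrm hν ξ) :=
  fun Y hY g => tv_tri hν hV b h hY.1 hY.2 g

end g3

end Vale.Agent.P092.SDT
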