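import Vale.Agent.P092.SD.Z
import Vale.Agent.P092.SDT.Cls
import Vale.Agent.P092.SDT.FlipT
import Vale.Agent.P092.SDT.TVT
import Vale.Agent.P092.H862.XcLegs
import Vale.Agent.P092.H264.AmpC
import Vale.Agent.P092.H264.EndD
import Vale.Agent.P092.H515.LatSl
import Vale.Agent.P092.H303.Form

/-!
P092, TEAM D, all amplifications (helper958): assembly. The only concrete input is `HalfT`, one leg
for the model `HH (PT α α α)`.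
-/

set_option linter.all false

open scoped InnerProductSpace ENNReal LinearAlgebra.Projectivization ZeroAtInfty
open Filter Topology ContinuousLinearMap MeasureTheory TopologicalSpace

namespace Vale.Agent.P092.SDT

open Vale.Agent.P092.SR (Tri)
open Vale.Agent.P092.SD Vale.Agent.P092.H160 Vale.Agent.P092.H103 Vale.Agent.P092.H962
open Vale.Agent.P092.H85 (cdat)
open Vale.Agent.P092.H34 Vale.Agent.P092.H34.Ind
open Vale.Agent.P092.H34.AmpE (nrm)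
open Vale.Agent.P092.RC (PicX Pic PicF ampH ampW ampO range_ampH ampW_union amp_comm_iff)

/-- The existential form of the field `inv` of the picture. -/
def BrStmt : Prop :=
  ∀ {G Γ K : Type} [Group G] [TopologicalSpace G] [Group Γ] [NormedAddCommGroup K]
    [InnerProductSpace ℂ K] [CompleteSpace K] (π : G →* (K →L[ℂ] K)) (lam : Γ →* (K →L[ℂ] K))
    (W : Set (K →L[ℂ] K)) (Ω : K), PicX π lam W Ω → Pic π lam W Ω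

/-- groups of large finite order -/
theorem exists_grp (ι : Type) [Fintype ι] (N : ℕ) :
    ∃ (Q : Type) (_ : Group Q) (_ : Fintype Q), Nonempty (ι ↪ Q) ∧ N ≤ Fintype.card Q := by
  haveI : NeZero (Fintype.card ι + N + 1) := ⟨by omega⟩
  refine ⟨Multiplicative (ZMod (Fintype.card ι + N + 1)), inferInstance, inferInstance,
    Function.Embedding.nonempty_of_card_le ?_, ?_⟩
  · rw [Fintype.card_multiplicative, ZMod.card]; omega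
  · rw [Fintype.card_multiplicative, ZMod.card]; omega

/-- The classification of one leg, families. -/
def LegCls : Prop :=
  ∀ {Γ K ι : Type} [Group Γ] [NormedAddCommGroup K] [InnerProductSpace ℂ K] [CompleteSpace K]
    [Fintype ι] (w : ℝˣ) (π : G3 ℝ →* (K →L[ℂ] K)) (lam : Γ →* (K →L[ℂ] K))
    (W : Set (K →L[ℂ] K)) (Ω : ι → K) (m : Set Γ → (K →L[ℂ] K)) (q : Γ →* G3 ℝ)
    (E F : PP ℝ → (CP ℝ →⋆ₐ[ℂ] (K →L[ℂ] K))), LegF volume w π lam W Ω m q E F →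
    ∃ Q : C₀(G3 ℝ, ℂ) →⋆ₙₐ[ℂ] (K →L[ℂ] K), Cls π lam W q E F Q

/-- The cross-leg step, families. -/
def XcF : Prop :=
  ∀ {Γ₁ Γ₂ K ι : Type} [Group Γ₁] [Countable Γ₁] [Group Γ₂] [NormedAddCommGroup K]
    [InnerProductSpace ℂ K] [CompleteSpace K] [Fintype ι] {π : G3 ℝ →* (K →L[ℂ] K)}
    {lam₁ : Γ₁ →* (K →L[ℂ] K)} {lam₂ : Γ₂ →* (K →L[ℂ] K)} {X : Set (K →L[ℂ] K)} {Ω : ι → K}
    {q₁ : Γ₁ →* G3 ℝ} {q₂ : Γ₂ →* G3 ℝ} {E₁ F₁ E₂ F₂ : PP ℝ → (CP ℝ →⋆ₐ[ℂ] (K →L[ℂ] K))}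
    {Q₁ Q₂ : C₀(G3 ℝ, ℂ) →⋆ₙₐ[ℂ] (K →L[ℂ] K)}
    (_ : PicF π lam₁ (X ∪ Set.range lam₂) Ω) (_ : TVF π lam₁ (X ∪ Set.range lam₂) Ω)
    (_ : ∀ γ, adjoint (lam₂ γ) = lam₂ γ⁻¹) (_ : ∀ C : ℝ, {γ : Γ₁ | nm (q₁ γ) ≤ C}.Finite)
    (_ : Cls π lam₁ (X ∪ Set.range lam₂) q₁ E₁ F₁ Q₁)
    (_ : Cls π lam₂ (X ∪ Set.range lam₁) q₂ E₂ F₂ Q₂) (ψ φ : C₀(G3 ℝ, ℂ)),
    Commute (Q₁ ψ) (Q₂ φ)

/-- `LegCls` from the statements with one vector. -/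
theorem legCls_of (hB : BrStmt) (hLC : LegComm ℝ volume) (hCls : ClsStmt ℝ volume) :
    LegCls := by
  intro Γ K ι _ _ _ _ _ w π lam W Ω m q E F hl
  obtain ⟨N, hN⟩ := hl.pic.exists_amp
  obtain ⟨B, iB, fB, ⟨j⟩, hc⟩ := exists_grp ι N
  have hS := hl.amp j (hB _ _ _ _ (hN B hc j))
  obtain ⟨qp, a1, b1, c1⟩ := hLC w _ _ _ _ _ q _ _ hS
  obtain ⟨P₀, hP₀⟩ := hCls w _ _ _ _ _ q _ _ hS qp a1 b1 c1
  exact hP₀.unamp

/-- `XcF` from `H862.xc_legs`. -/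
theorem xcF_of (hB : BrStmt) : XcF := by
  intro Γ₁ Γ₂ K ι _ _ _ _ _ _ _ π lam₁ lam₂ X Ω q₁ q₂ E₁ F₁ E₂ F₂ Q₁ Q₂ hP hT h₂ hf hQ₁ hQ₂ ψ φ
  obtain ⟨N, hN⟩ := hP.exists_amp
  obtain ⟨B, iB, fB, ⟨j⟩, hc⟩ := exists_grp ι N
  have hp := hB _ _ _ _ (hN B hc j)
  have htv := tv_amp hT j
  have k1 := hQ₁.amp (B := B)
  have k2 := hQ₂.amp (B := B)
  rw [ampW_union, ← range_ampH] at hp htv k1 k2
  have h3 := H862.xc_legs hp htv (fun γ => by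
    rw [RC.ampH_ap, H333.Amp.adjoint_amp, h₂ γ]
    rfl) hf k1 k2 ψ φ
  exact amp_comm_iff.1 h3.eq

section leg

variable [LocallyCompactSpace (G3 ℝ)] [SecondCountableTopology (G3 ℝ)] [MeasurableSpace (G3 ℝ)]
  [BorelSpace (G3 ℝ)] {Γ : Subgroup (G3 ℝ)} [DiscreteTopology Γ] [Countable Γ]
  [MeasurableSpace (G3 ℝ ⧸ Γ)] [BorelSpace (G3 ℝ ⧸ Γ)] {ν : Measure (G3 ℝ ⧸ Γ)}
  [IsProbabilityMeasure ν] (hν : ∀ g : G3 ℝ, ν.map (fun x => g • x) = ν)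
  {ℋ : Type} [NormedAddCommGroup ℋ] [InnerProductSpace ℂ ℋ] [CompleteSpace ℋ]
  {V R₁ R₂ : Γ →* (ℋ →L[ℂ] ℋ)} {ι : Type} [Fintype ι] {ξ : ι → ℋ} {s : ℋ →L[ℂ] ℋ}

/-- the calculus of the second leg -/
theorem cls_flip (hs : s * s = 1) (ha : adjoint s = s) (sV : ∀ v, s * V v = V v * s)
    (s1 : ∀ g, s * R₁ g = R₂ g * s) (s2 : ∀ g, s * R₂ g = R₁ g * s)
    (hV : ∀ v, adjoint (V v) = V v⁻¹) {q : Γ →* G3 ℝ}
    {E F : PP ℝ → (CP ℝ →⋆ₐ[ℂ] (Lp ℋ 2 (cdat ν hν).μ →L[ℂ] Lp ℋ 2 (cdat ν hν).μ))}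
    {P : C₀(G3 ℝ, ℂ) →⋆ₙₐ[ℂ] (Lp ℋ 2 (cdat ν hν).μ →L[ℂ] Lp ℋ 2 (cdat ν hν).μ)}
    (hP : Cls (Ind.pi (cdat ν hν) (V := V) hV) (Ind.lam (cdat ν hν) R₁)
      (Xset (cdat ν hν) ℋ ∪ Set.range (Ind.lam (cdat ν hν) R₂)) q E F P) :
    Cls (Ind.pi (cdat ν hν) (V := V) hV) (Ind.lam (cdat ν hν) R₂)
      (Xset (cdat ν hν) ℋ ∪ Set.range (Ind.lam (cdat ν hν) R₁)) q
      (fun a => cjE (flS (cdat ν hν) s hs ha) (E a)) (fun a => cjE (flS (cdat ν hν) s hs ha) (F a))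
      (cjQ (flS (cdat ν hν) s hs ha) P) := by
  have h1 : ∀ g, Ind.pi (cdat ν hν) (V := V) hV g =
      RC.cj (flS (cdat ν hν) s hs ha) (Ind.pi (cdat ν hν) (V := V) hV g) := fun g =>
    (cj_pi (cdat ν hν) hs ha hV sV g).symm
  have h2 : ∀ g, Ind.lam (cdat ν hν) R₂ g =
      RC.cj (flS (cdat ν hν) s hs ha) (Ind.lam (cdat ν hν) R₁ g) := fun g =>
    (cj_lam (cdat ν hν) hs ha s1 g).symm
  have h3 : Xset (cdat ν hν) ℋ ∪ Set.range (Ind.lam (cdat ν hν) R₁) =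
      RC.cj (flS (cdat ν hν) s hs ha) ''
        (Xset (cdat ν hν) ℋ ∪ Set.range (Ind.lam (cdat ν hν) R₂)) := by
    rw [Set.image_union, cj_image (X := Xset (cdat ν hν) ℋ) (cdat ν hν) hs ha fun T hT => hT,
      cj_range (cdat ν hν) hs ha s2]
  exact tw_cls h1 h2 h3 hP

/-- **One leg gives the overlap**, any fibre with a flip. -/
theorem over_of_leg (hC : LegCls) (hX : XcF)
    (hs : s * s = 1) (ha : adjoint s = s) (sV : ∀ v, s * V v = V v * s)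
    (s1 : ∀ g, s * R₁ g = R₂ g * s) (s2 : ∀ g, s * R₂ g = R₁ g * s) (hT : Tri V R₁ R₂ ξ)
    {w : ℝˣ} {m : Set Γ → (Lp ℋ 2 (cdat ν hν).μ →L[ℂ] Lp ℋ 2 (cdat ν hν).μ)} {q : Γ →* G3 ℝ}
    {E F : PP ℝ → (CP ℝ →⋆ₐ[ℂ] (Lp ℋ 2 (cdat ν hν).μ →L[ℂ] Lp ℋ 2 (cdat ν hν).μ))}
    (hl : LegF volume w (Ind.pi (cdat ν hν) (V := V) hT.adjV) (Ind.lam (cdat ν hν) R₁)
      (Xset (cdat ν hν) ℋ ∪ Set.range (Ind.lam (cdat ν hν) R₂)) (nrm hν ξ) m q E F) :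
    H264.Amp.Over V R₁ R₂ := by
  obtain ⟨P₁, hP₁⟩ := hC w _ _ _ _ m q E F hl
  have hP₂ := cls_flip hν hs ha sV s1 s2 hT.adjV hP₁
  obtain ⟨I, hI, ⟨b⟩⟩ := H264.Amp.exists_basis (H264.Amp.pars_of_tri hT)
  exact H264.Amp.over_of_legs hν hT (X := Xset (cdat ν hν) ℋ) (fun S hS => ⟨S, hS, rfl⟩)
    (H264.Cl.cleg_of_cls hP₁ hl.inj hl.disc) (H264.Cl.cleg_of_cls hP₂ hl.inj hl.disc)
    (hX hl.pic (tvf_tri hν hT.adjV b hT) (Ind.adjoint_lam (cdat ν hν) hT.adj₂) hl.disc hP₁ hP₂)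

end leg

/-- **[D-EX-T]** one leg of the model, with a suitable finite Parseval family: the only thing to be
proved. -/
def HalfT : Prop :=
  ∀ [LocallyCompactSpace (G3 ℝ)] [SecondCountableTopology (G3 ℝ)] [MeasurableSpace (G3 ℝ)]
    [BorelSpace (G3 ℝ)] {Γ : Subgroup (G3 ℝ)} [DiscreteTopology Γ] [Countable Γ]
    [MeasurableSpace (G3 ℝ ⧸ Γ)] [BorelSpace (G3 ℝ ⧸ Γ)] {ν : Measure (G3 ℝ ⧸ Γ)}
    [IsProbabilityMeasure ν] (hν : ∀ g : G3 ℝ, ν.map (fun x => g • x) = ν)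
    (_ : H515.St.IsLattice Γ) (_ : ∀ g : Γ, g ≠ 1 → Set.Infinite {y : Γ | ∃ h, y = h * g * h⁻¹})
    {Λ : Type} [Group Λ] [Countable Λ]
    (_ : ∀ g : Λ, g ≠ 1 → Set.Infinite {y : Λ | ∃ h, y = h * g * h⁻¹})
    {I : Type} [Fintype I] {α : Γ → (Ell2 (I × Λ) →L[ℂ] Ell2 (I × Λ))} (hα : AF α),
    ∃ (ι : Type) (_ : Fintype ι) (ξ : ι → HH (PT α α α))
      (hT : Tri (V3 hα hα hα) (A3R hα hα hα) (B3R hα hα hα) ξ) (w : ℝˣ)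
      (m : Set Γ → (Lp (HH (PT α α α)) 2 (cdat ν hν).μ →L[ℂ] Lp (HH (PT α α α)) 2 (cdat ν hν).μ))
      (q : Γ →* G3 ℝ)
      (E F : PP ℝ → (CP ℝ →⋆ₐ[ℂ]
        (Lp (HH (PT α α α)) 2 (cdat ν hν).μ →L[ℂ] Lp (HH (PT α α α)) 2 (cdat ν hν).μ))),
      LegF volume w (Ind.pi (cdat ν hν) (V := V3 hα hα hα) hT.adjV)
        (Ind.lam (cdat ν hν) (A3R hα hα hα))
        (Xset (cdat ν hν) (HH (PT α α α)) ∪ Set.range (Ind.lam (cdat ν hν) (B3R hα hα hα)))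
        (nrm hν ξ) m q E F

/-- **All amplifications, lattices in `SL_3(ℝ)`.** -/
theorem coreT (hC : LegCls) (hX : XcF) (hH : HalfT)
    (Γ : Subgroup (G3 ℝ)) (hΓ : H515.St.IsLattice Γ)
    (hicc : ∀ g : Γ, g ≠ 1 → Set.Infinite {y : Γ | ∃ h, y = h * g * h⁻¹}) :
    SR.St.SuperAll Γ := by
  intro Λ _ _ hΛ n p hpj θ
  haveI h1 : LocallyCompactSpace (G3 ℝ) := H303.locallyCompact_SL
  haveI h2 : SecondCountableTopology (G3 ℝ) := H303.secondCountable_SL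
  letI : MeasurableSpace (G3 ℝ) := borel _
  haveI : BorelSpace (G3 ℝ) := ⟨rfl⟩
  haveI hd : DiscreteTopology Γ := hΓ.disc
  haveI hc : Countable Γ := H790.countable_of_discrete (E := G3 ℝ) Γ
  letI : MeasurableSpace (G3 ℝ ⧸ Γ) := borel _
  haveI : BorelSpace (G3 ℝ ⧸ Γ) := ⟨rfl⟩
  obtain ⟨ν, hP', hν⟩ := H515.IsLattice.exists_prob (Λ := Γ) ⟨hΓ.disc, hΓ.covol⟩
  have hα : AF (H103.alf θ) := H103.af_of hicc hpj θ
  obtain ⟨ι, _, ξ, hT, w, m, q, E, F, hl⟩ := hH (Γ := Γ) hν hΓ hicc hΛ hα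
  exact H264.Amp.canonM_of_over hicc hΛ hpj θ rfl hα
    (over_of_leg hν hC hX (sT_sq hα) (sT_adj hα) (sT_V hα) (sT_A hα) (sT_B hα) hT hl)

theorem superAll_of (hC : LegCls) (hX : XcF) (hH : HalfT)
    (Γ : Type) [Group Γ] (hΓ : SD.St.RealLattice Γ) : SR.St.SuperAll Γ := by
  obtain ⟨hicc, i, hi, hl⟩ := hΓ
  exact H58.superAll_equiv (MonoidHom.ofInjective hi) (coreT hC hX hH i.range hl
    (H133.icc_equiv (MonoidHom.ofInjective hi) hicc))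

/-- **`SD.St.FinalAll` modulo `HalfT`.** -/
theorem finalAll_of (hC : LegCls) (hX : XcF) (hH : HalfT) : SD.St.FinalAll :=
  ⟨superAll_of hC hX hH, fun Γ hΓ =>
    superAll_of hC hX hH Γ (realLattice_of_finiteIndex Γ)⟩

end Vale.Agent.P092.SDT
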