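import Vale.Agent.P092.SDT.Main
import Vale.Agent.P092.H34.X.D
import Vale.Agent.P092.H862.XcLegsF

/-!
P092, TEAM D, all amplifications (helper958): the joints plugged (helper34, helper862).
-/

set_option linter.all false

open scoped InnerProductSpace ENNReal LinearAlgebra.Projectivization ZeroAtInfty
open Filter Topology ContinuousLinearMap MeasureTheory TopologicalSpace

namespace Vale.Agent.P092.SDT

open Vale.Agent.P092.SD Vale.Agent.P092.H160

theorem legCls : LegCls := fun w π lam W Ω m q E F hl => SD.X.clsF hl

theorem xcF : XcF := fun hP hT h₂ hf h1 h2 ψ φ => H862.xc_legsF hP hT h₂ hf h1 h2 ψ φ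

/-- **`SD.St.FinalAll` from one leg.** -/
theorem finalAll_of_half (hH : HalfT) : SD.St.FinalAll := finalAll_of legCls xcF hH

end Vale.Agent.P092.SDT
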