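import Vale.Agent.P092.H862.NXcF
import Vale.Agent.P092.H325.NXs
import Vale.Agent.P092.H375.ClsU3
import Vale.Agent.P092.H958.AmpD
import Vale.Agent.P092.SD.Tw
import Vale.Agent.P092.H252.DU.End

/-!
P092, D-ULTRA, all amplifications (helper958): a commuting leg of `SL_3(k)` of a finite family is
classical (`H375.Cls.leg3` needs only the ergodicity of the picture); the second leg from the first
one by a unitary; both commute.
-/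

set_option linter.all false

open scoped InnerProductSpace ENNReal ZeroAtInfty LinearAlgebra.Projectivization Matrix
open Filter Topology ContinuousLinearMap MeasureTheory Matrix

namespace Vale.Agent.P092.SDT.U

open Vale.Agent.P092.SD
open Vale.Agent.P092.RC (PG YY GG Cm Moore ct cj cj_ap cm_cj PicF)
open Vale.Agent.P092.H933 (LocK)
open Vale.Agent.P092.H35 (sp mkP)
open Vale.Agent.P092.H35.Sig (sgm sgm_smul)
open Vale.Agent.P092.H295 (ltr rtr)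

section leg3

variable {k : Type} [NontriviallyNormedField k] [ProperSpace k] [MeasurableSpace k]
  {μ : Measure k} {Γ K κ : Type} [Group Γ] [NormedAddCommGroup K] [InnerProductSpace ℂ K]
  [CompleteSpace K] [Fintype κ] {w : kˣ} {π : G3 k →* (K →L[ℂ] K)} {lam : Γ →* (K →L[ℂ] K)}
  {W : Set (K →L[ℂ] K)} {Ω : κ → K} {m : Set Γ → (K →L[ℂ] K)} {q : Γ →* G3 k}
  {E F : PP k → (CP k →⋆ₐ[ℂ] (K →L[ℂ] K))}

theorem leg3F (hk : LocK k) (hL : LegF μ w π lam W Ω m q E F) (hQ : QP E F)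
    (cEE : ∀ a b f g, Commute (E a f) (E b g)) (cEF : ∀ a l f h, Commute (E a f) (F l h))
    (cFF : ∀ l l' f g, Commute (F l f) (F l' g)) :
    H375.Cls.Leg (n := 3) (sp k 3) π lam W q E where
  cm := hL.e.cm
  cov := hL.e.cov
  pcov := fun e a f => by
    have h1 : sp k 3 e • a = e • a := H375.Cls.sp_smul (m := 2) e a
    rw [h1]
    exact hL.e.pcov e a f
  com := cEE
  erg := fun i j l hij hli hlj T h1 h2 h3 =>
    hL.pic.erg _ (H375.Cls.moore_ln (m := 2) (by norm_num) hk hli.symm hlj) T h1 h2 h3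
  mt := fun a Φ hΦ ξ => H375.Cls.mt_of_plane hQ.inc hQ.agrE hQ.agrF cEE cEF cFF a Φ hΦ ξ

/-- **A leg of a finite family is classical.** -/
theorem clsN3F (hk : LocK k) (hL : LegF μ w π lam W Ω m q E F) (hQ : QP E F)
    (cEE : ∀ a b f g, Commute (E a f) (E b g)) (cEF : ∀ a l f h, Commute (E a f) (F l h))
    (cFF : ∀ l l' f g, Commute (F l f) (F l' g)) :
    ∃ (σ : k →+* k) (Q : C₀(PG k 3, ℂ) →⋆ₙₐ[ℂ] (K →L[ℂ] K)),
      SN.ClsN (N := 2) (sp k 3) π lam W q E σ Q := by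
  haveI : Nontrivial K := by
    by_contra hn
    rw [not_nontrivial_iff_subsingleton] at hn
    have h1 := hL.pic.nΩ
    have h2 : ∀ i, ‖Ω i‖ ^ 2 = 0 := fun i => by
      rw [Subsingleton.elim (Ω i) 0, norm_zero]
      norm_num
    rw [Finset.sum_congr rfl fun i _ => h2 i, Finset.sum_const_zero] at h1
    exact zero_ne_one h1
  obtain ⟨σ, Q, h⟩ := (leg3F hk hL hQ cEE cEF cFF).out (m := 2) le_rfl (MonoidHom.id _)
    (fun g x => H375.Cls.sp_smul (m := 2) g x)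
  exact ⟨σ, Q, h.nd, h.cm, h.cov, h.pcov, h.mulE⟩

end leg3

section flip

variable {k : Type} [NontriviallyNormedField k] [ProperSpace k] {K : Type}
  [NormedAddCommGroup K] [InnerProductSpace ℂ K] [CompleteSpace K] {G : Type}
  [TopologicalSpace G]

/-- conjugation of a calculus of `C₀` -/
noncomputable def cjG (u : K ≃ₗᵢ[ℂ] K) (P : C₀(G, ℂ) →⋆ₙₐ[ℂ] (K →L[ℂ] K)) :
    C₀(G, ℂ) →⋆ₙₐ[ℂ] (K →L[ℂ] K) :=
  (cjH u : (K →L[ℂ] K) →⋆ₙₐ[ℂ] (K →L[ℂ] K)).comp P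

theorem cjG_ap (u : K ≃ₗᵢ[ℂ] K) (P : C₀(G, ℂ) →⋆ₙₐ[ℂ] (K →L[ℂ] K)) (ψ : C₀(G, ℂ)) :
    cjG u P ψ = cj u (P ψ) := rfl

theorem nd_cjG {u : K ≃ₗᵢ[ℂ] K} {P : C₀(G, ℂ) →⋆ₙₐ[ℂ] (K →L[ℂ] K)}
    (h : ∀ ξ, (∀ ψ, P ψ ξ = 0) → ξ = 0) : ∀ ξ, (∀ ψ, cjG u P ψ ξ = 0) → ξ = 0 := by
  intro ξ hξ
  obtain ⟨η, rfl⟩ := surj_vec u ξ
  rw [h η fun ψ => ?_, map_zero]
  have h1 := hξ ψ
  rw [cjG_ap, cj_ap] at h1
  exact u.injective (h1.trans (map_zero u).symm)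

variable {Γ : Type} [Group Γ] {π : G3 k →* (K →L[ℂ] K)} {lam₁ lam₂ : Γ →* (K →L[ℂ] K)}
  {X : Set (K →L[ℂ] K)} {u : K ≃ₗᵢ[ℂ] K} {q : Γ →* G3 k}
  {E F : PP k → (CP k →⋆ₐ[ℂ] (K →L[ℂ] K))} {κ : Type} [Fintype κ] {Ω : κ → K}

/-- **Both legs are classical and commute**, the second leg is the first one conjugated by `u`. -/
theorem two_legs [Countable Γ] (hk : LocK k) (hπ : ∀ g, cj u (π g) = π g)
    (hl : ∀ γ, cj u (lam₁ γ) = lam₂ γ)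
    (hW : cj u '' (X ∪ Set.range lam₂) = X ∪ Set.range lam₁)
    (hP : PicF π lam₁ (X ∪ Set.range lam₂) Ω) (tv : TVF π lam₁ (X ∪ Set.range lam₂) Ω)
    (hd : ∀ C : ℝ, {γ : Γ | nm (q γ) ≤ C}.Finite) {σ : k →+* k}
    {Q : C₀(PG k 3, ℂ) →⋆ₙₐ[ℂ] (K →L[ℂ] K)}
    (h : SN.ClsN (N := 2) (sp k 3) π lam₁ (X ∪ Set.range lam₂) q E σ Q) :
    H252.DU.CQ π lam₁ (X ∪ Set.range lam₂) q Q ∧
      H252.DU.CQ π lam₂ (X ∪ Set.range lam₁) q (cjG u Q) ∧ ∀ ψ φ, Commute (Q ψ) (cjG u Q φ) := by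
  letI : MeasurableSpace k := borel k
  have h1 := H375.Cls.cq_of h
  have cm₂ : ∀ ψ, Cm (X ∪ Set.range lam₁) (cjG u Q ψ) := by
    intro ψ
    rw [← hW, cjG_ap]
    exact (cm_cj u).2 (h.cm ψ)
  have cov₂ : ∀ γ (ψ ψ' : C₀(PG k 3, ℂ)), (∀ x, ψ' x = ψ ((sp k 3 (q γ))⁻¹ * x)) →
      lam₂ γ * cjG u Q ψ * lam₂ γ⁻¹ = cjG u Q ψ' := by
    intro γ ψ ψ' hψ
    rw [cjG_ap, cjG_ap, ← hl, ← hl, ← map_mul, ← map_mul, h.cov γ ψ ψ' hψ]
  have h2 : H252.DU.CQ π lam₂ (X ∪ Set.range lam₁) q (cjG u Q) := by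
    refine ⟨nd_cjG h.nd, cm₂, cov₂, fun g ψ => ?_⟩
    obtain ⟨ψ', h3⟩ := h1.pcov g ψ
    refine ⟨ψ', ?_⟩
    rw [cjG_ap, cjG_ap, ← hπ g, ← hπ g⁻¹, ← map_mul, ← map_mul, h3]
  refine ⟨h1, h2, fun ψ φ => ?_⟩
  have ph : SN.PH (N := 2) (k := k) (fun γ => q γ) := fun γ γ' => ⟨1, by
    rw [one_smul]
    exact congrArg Subtype.val (map_mul q γ γ')⟩
  have hI := H325.clsI_of (N := 2) (H455.adm_sl hk le_rfl) h
  have hU : H862.PicU π lam₁ (X ∪ Set.range lam₂) Ω :=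
    H862.picU_of_picF hP fun Y h1 h2 g => tv Y ⟨h1, h2⟩ g
  have a2 : ∀ γ, adjoint (lam₂ γ) = lam₂ γ⁻¹ := by
    intro γ
    rw [← hl, ← hl, RC.adjoint_cj, hP.adjL]
  letI : MeasurableSpace (PG k 3) := borel _
  haveI : BorelSpace (PG k 3) := ⟨rfl⟩
  haveI : (Measure.haar : Measure (PG k 3)).IsMulRightInvariant := H626.rightInv_pg k 3 _
  refine H862.nXc_genF (N := 2) (Measure.haar : Measure (PG k 3)) (q₂ := H325.qP (fun γ => q γ) ph)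
    (ι₂ := (sp k 3).comp (SpecialLinearGroup.map σ)) hU a2 ph
    (fun C hC => H325.overlap_disc ph hd hC) hI (nd_cjG h.nd) cm₂
    (fun γ ψ => cov₂ γ ψ _ fun x => rfl) (fun g ψ => ?_) ψ φ
  have h4 := hI.pcov g ψ (rtr ((sp k 3) (SpecialLinearGroup.map σ g)) ψ) fun x => rfl
  change π g * cjG u Q ψ * π g⁻¹ = cjG u Q (rtr ((sp k 3) (SpecialLinearGroup.map σ g)) ψ)
  rw [cjG_ap, cjG_ap, ← hπ g, ← hπ g⁻¹, ← map_mul, ← map_mul]
  exact congrArg (cj u) h4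

end flip

end Vale.Agent.P092.SDT.U
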