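import Vale.Agent.P092.H252.ULeg
import Vale.Agent.P092.H34.X.D

/-!
P092, D-ULTRA, all amplifications (helper958; text of helper252 and helper87, H252/ULeg, for the
leg `SD.X.LegS` of helper34): over a nonarchimedean local field of any characteristic, a leg of a
finite family is a commuting quantum plane.
-/

set_option linter.all false

open scoped InnerProductSpace ENNReal LinearAlgebra.Projectivization
open Filter Topology ContinuousLinearMap MeasureTheory TopologicalSpace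

namespace Vale.Agent.P092.SDT.U

open Vale.Agent.P092.SD
open Vale.Agent.P092.H87.U
open Vale.Agent.P092.RC (Cm TRN Moore Pic)
open Vale.Agent.P092.H820 (inc3 inc3_closed plane_comm Cpv)
open Vale.Agent.P092.H632.SD (exists_g3 exists_g2 cm_mul com_bw com_bw' com_un0 com_un2 com_un'
  star_calc cov_apply)
open Vale.Agent.P092.H68 (EMZ exists_line)
open Vale.Agent.P092.H375.Ultra (Quad NI)
open Vale.Agent.P092.H252 (act_chi nm_le_ceil ceil_pow allStmt_ultra chi chi_star cpv cpv_spec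
  tsupport_chi qp_of_clopen)

section leg

variable {k : Type} [NontriviallyNormedField k] [ProperSpace k] [IsUltrametricDist k]
  [MeasurableSpace k] {μ : Measure k}
  {Γ K : Type} [Group Γ] [NormedAddCommGroup K] [InnerProductSpace ℂ K] [CompleteSpace K]
  {π : G3 k →* (K →L[ℂ] K)} {lam : Γ →* (K →L[ℂ] K)} {W : Set (K →L[ℂ] K)} {Ω : K}
  {m : Set Γ → (K →L[ℂ] K)} {q : Γ →* G3 k} {w : kˣ} {E F : PP k → (CP k →⋆ₐ[ℂ] (K →L[ℂ] K))}

lemma norm_lam_E (hL : SD.X.LegS μ w π lam W Ω m q E F) (b : PP k) (Z : Clopens (PP k)) (γ : Γ) (v : K) :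
    E b (chi Z) (lam γ v) = lam γ (E b (chi (pb (q γ) Z)) v) := by
  rw [cov_apply hL.e, map_inv q, act_chi]

lemma norm_lam_F (hL : SD.X.LegS μ w π lam W Ω m q E F) (l : PP k) (A : Clopens (PP k)) (γ : Γ) (v : K) :
    F l (chi A) (lam γ v) = lam γ (F l (chi (pb (tau k (q γ)) A)) v) := by
  rw [cov_apply hL.f, MonoidHom.comp_apply, map_inv q, map_inv (tau k), act_chi]

/-- **(I1)** for clopen sets -/
theorem inc_ultra (hL : SD.X.LegS μ w π lam W Ω m q E F) (hZ : EMZ w π lam W Ω q E) {a l : PP k}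
    (hal : (a, l) ∈ inc3 (k := k)) {U A : Clopens (PP k)} (hUA : NI (inc3 (k := k)) U A) : cpv (E a) U * cpv (F l) A = 0 := by
  obtain ⟨g, hga, hgl⟩ := exists_g2 hal
  have key := hZ g _ (hL.f.cm l (chi A)) ?_ ?_ (chi U) (U : Set (PP k))
    U.isClopen.isOpen (tsupport_chi U) 1 ?_
  · rw [hga] at key
    exact key
  · intro N
    rw [← hgl]
    exact com_bw' hL.f g w N 2 _
  · intro s
    rw [← hgl]
    exact com_un' hL.f g s _
  · intro R
    obtain ⟨T₀, hT₀, H⟩ := sum_I1 (K := K) q hL.disc hUA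
    obtain ⟨C, hC, H2⟩ := H T₀ le_rfl R
    refine ⟨T₀, hT₀, C * 2, fun J hJ S hS => ?_⟩
    have h1 := H2 (cpv (F l)) (cpv_spec (F l)) ⌈J⌉₊ S
      (fun γ hγ => ⟨(hS γ hγ).1, (hS γ hγ).2.1, nm_le_ceil (hS γ hγ).2.2⟩) Ω
    rw [hL.pic.nΩ, one_pow, mul_one] at h1
    have h2 : ∑ γ ∈ S, ‖adjoint (F l (chi A)) (lam γ Ω)‖ ^ 2 =
        ∑ γ ∈ S, ‖cpv (F l) (pb (tau k (q γ)) A) Ω‖ ^ 2 := by
      refine Finset.sum_congr rfl fun γ _ => ?_
      rw [star_calc, chi_star, norm_lam_F hL, SD.X.lam_unit hL.pic]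
      rfl
    rw [h2]
    refine h1.trans ?_
    have h3 := ceil_pow hJ 1
    rw [pow_one, pow_one, pow_one] at h3
    rw [pow_one, mul_assoc]
    exact mul_le_mul_of_nonneg_left h3 hC

lemma supp_ultra (hL : SD.X.LegS μ w π lam W Ω m q E F) (hZ : EMZ w π lam W Ω q E) {a l : PP k}
    (hal : (a, l) ∈ inc3 (k := k)) (U A : Clopens (PP k)) (hUA : ∀ x ∈ U, ∀ y ∈ A, (x, y) ∉ inc3 (k := k)) :
    cpv (E a) U * cpv (F l) A = 0 := inc_ultra hL hZ hal hUA

lemma com_ultra (hL : SD.X.LegS μ w π lam W Ω m q E F) (hZ : EMZ w π lam W Ω q E) {a l : PP k}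
    (hal : (a, l) ∈ inc3 (k := k)) (U A : Clopens (PP k)) : cpv (E a) U * cpv (F l) A = cpv (F l) A * cpv (E a) U :=
  plane_comm (cpv_spec (E a)) (cpv_spec (F l)) (fun A B h => supp_ultra hL hZ hal A B h) U A

/-- the quadruple `b, a` on `n`, `a` on `l` -/
theorem quad_ultra (hL : SD.X.LegS μ w π lam W Ω m q E F) (hZ : EMZ w π lam W Ω q E)
    {a b n l : PP k}
    (han : (a, n) ∈ inc3 (k := k)) (hbn : (b, n) ∈ inc3 (k := k)) (hal : (a, l) ∈ inc3 (k := k)) :
    Quad (inc3 (k := k)) (cpv (E b)) (cpv (E a)) (cpv (F l)) (cpv (F n)) where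
  cl := inc3_closed
  hPb := cpv_spec _
  hPc := cpv_spec _
  hLm := cpv_spec _
  hLl := cpv_spec _
  hbl := supp_ultra hL hZ hbn
  hcl := supp_ultra hL hZ han
  hcm := supp_ultra hL hZ hal
  cbl := com_ultra hL hZ hbn
  ccm := com_ultra hL hZ hal

/-- **(KEY)** for clopen sets -/
theorem key_ultra (hL : SD.X.LegS μ w π lam W Ω m q E F) (hZ : EMZ w π lam W Ω q E)
    {a b l : PP k} (hal : (a, l) ∈ inc3 (k := k))
    (hbl : (b, l) ∉ inc3 (k := k)) {U V A : Clopens (PP k)} (hUV : Disjoint U V)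
    (hUA : NI (inc3 (k := k)) U A) : cpv (E a) U * cpv (E b) V * cpv (F l) A = 0 := by
  obtain ⟨g, hga, hgb, hgl⟩ := exists_g3 hal hbl
  have hab : a ≠ b := fun e => hbl (e ▸ hal)
  obtain ⟨n, han, hbn⟩ := exists_line a b hab
  have hQ := quad_ultra hL hZ han hbn hal
  have hB : Cm W (E b (chi V) * F l (chi A)) := cm_mul (hL.e.cm b _) (hL.f.cm l _)
  rw [mul_assoc]
  have key := hZ g _ hB ?_ ?_ (chi U) (U : Set (PP k))
    U.isClopen.isOpen (tsupport_chi U) 3 ?_
  · rw [hga] at key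
    exact key
  · intro N
    have h1 : Commute (E b (chi V) * F l (chi A)) (π (g * bw w ^ N * g⁻¹)) := by
      refine Commute.mul_left ?_ ?_
      · rw [← hgb]
        exact com_bw hL.e g w N 2 _
      · rw [← hgl]
        exact com_bw' hL.f g w N 2 _
    exact h1
  · intro s
    have h1 : Commute (E b (chi V) * F l (chi A)) (π (g * un s * g⁻¹)) := by
      refine Commute.mul_left ?_ ?_
      · rw [← hgb]
        exact com_un2 hL.e g s _
      · rw [← hgl]
        exact com_un' hL.f g s _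
    exact h1
  · intro R
    obtain ⟨T₀, hT₀, H⟩ := sum_key (K := K) q hL.disc hUV hUA
    obtain ⟨C, hC, H2⟩ := H T₀ le_rfl R
    refine ⟨T₀, hT₀, C * 2 ^ 3, fun J hJ S hS => ?_⟩
    have h1 := H2 _ _ _ _ hQ ⌈J⌉₊ S
      (fun γ hγ => ⟨(hS γ hγ).1, (hS γ hγ).2.1, nm_le_ceil (hS γ hγ).2.2⟩) Ω
    rw [hL.pic.nΩ, one_pow, mul_one] at h1
    have h2 : ∑ γ ∈ S, ‖adjoint (E b (chi V) * F l (chi A)) (lam γ Ω)‖ ^ 2 =
        ∑ γ ∈ S, ‖cpv (F l) (pb (tau k (q γ)) A) (cpv (E b) (pb (q γ) V) Ω)‖ ^ 2 := by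
      refine Finset.sum_congr rfl fun γ _ => ?_
      have h1 : adjoint (E b (chi V) * F l (chi A)) = F l (chi A) * E b (chi V) := by
        rw [← star_eq_adjoint, star_mul, star_eq_adjoint, star_eq_adjoint, star_calc, star_calc,
          chi_star, chi_star]
      rw [h1]
      change ‖F l (chi A) (E b (chi V) (lam γ Ω))‖ ^ 2 = _
      rw [norm_lam_E hL, norm_lam_F hL, SD.X.lam_unit hL.pic]
      rfl
    rw [h2]
    refine h1.trans ?_
    rw [mul_assoc]
    exact mul_le_mul_of_nonneg_left (ceil_pow hJ 3) hC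

/-- **The quantum plane over a nonarchimedean local field.** -/
theorem qp_ultra (hL : SD.X.LegS μ w π lam W Ω m q E F) (hZ : EMZ w π lam W Ω q E) : QP E F :=
  qp_of_clopen (fun a l hal U A hUA => inc_ultra hL hZ hal hUA) hL.e.agr hL.f.agr
    fun a b l hal hbl U V A hUV hUA => key_ultra hL hZ hal hbl hUV hUA

end leg


/-- The counting principle of helper790 for a leg (any local field). -/
theorem emzX {k : Type} [NontriviallyNormedField k] [ProperSpace k] [MeasurableSpace k]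
    [BorelSpace k] {μ : Measure k} [IsFiniteMeasureOnCompacts μ] [μ.IsOpenPosMeasure]
    {Γ K : Type} [Group Γ] [NormedAddCommGroup K] [InnerProductSpace ℂ K] [CompleteSpace K]
    {w : kˣ} {π : G3 k →* (K →L[ℂ] K)} {lam : Γ →* (K →L[ℂ] K)} {W : Set (K →L[ℂ] K)} {Ω : K}
    {m : Set Γ → (K →L[ℂ] K)} {q : Γ →* G3 k} {E F : PP k → (CP k →⋆ₐ[ℂ] (K →L[ℂ] K))}
    (h : SD.X.LegS μ w π lam W Ω m q E F) : EMZ w π lam W Ω q E := by
  intro g B hB hb hn u A hA hu p hc
  have h1 := hb 1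
  rw [pow_one] at h1
  exact SD.X.emul_poly (μ := μ) h hB h1 hn hA hu p hc

/-- **In a leg of a finite family over a nonarchimedean local field everything commutes.** -/
theorem legCommU {k : Type} [NontriviallyNormedField k] [ProperSpace k]
    [IsUltrametricDist k] [MeasurableSpace k] [BorelSpace k] {μ : Measure k}
    [IsFiniteMeasureOnCompacts μ] [μ.IsOpenPosMeasure] {Γ K ι : Type} [Group Γ]
    [NormedAddCommGroup K] [InnerProductSpace ℂ K] [CompleteSpace K] [Fintype ι]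
    {w : kˣ} {π : G3 k →* (K →L[ℂ] K)} {lam : Γ →* (K →L[ℂ] K)} {W : Set (K →L[ℂ] K)}
    {Ω : ι → K} {m : Set Γ → (K →L[ℂ] K)} {q : Γ →* G3 k}
    {E F : PP k → (CP k →⋆ₐ[ℂ] (K →L[ℂ] K))} (h : LegF μ w π lam W Ω m q E F) : QP E F ∧
    (∀ a b f g, Commute (E a f) (E b g)) ∧ (∀ a l f h, Commute (E a f) (F l h)) ∧
    ∀ l l' f g, Commute (F l f) (F l' g) := by
  obtain ⟨Q, _, _, ⟨j⟩⟩ := RC.exists_emb ι
  have h0 := SD.X.LegF.ampW h j
  have hq := qp_ultra h0 (emzX h0)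
  obtain ⟨h1, h2, h3⟩ := allStmt_ultra k _ _ hq
  refine ⟨⟨fun a l hal u f hn => ?_, fun a l hal f g => ?_, h.e.agr, h.f.agr,
    fun a b l hal hbl u f g hf hni hd => ?_⟩, fun a b f g => ?_, fun a l f g => ?_,
    fun l l' f g => ?_⟩
  · have e1 : H333.Amp.amp (Q := Q) (E a u) * H333.Amp.amp (F l f) = 0 := hq.inc a l hal u f hn
    rw [← H333.Amp.amp_mul] at e1
    exact H333.Amp.amp_inj (e1.trans H333.Amp.amp_zero.symm)
  · exact SD.X.unamp_commute (Q := Q) (hq.com a l hal f g)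
  · have e1 : H333.Amp.amp (Q := Q) (E a u) * H333.Amp.amp (E b f) * H333.Amp.amp (F l g) = 0 :=
      hq.key a b l hal hbl u f g hf hni hd
    rw [← H333.Amp.amp_mul, ← H333.Amp.amp_mul] at e1
    exact H333.Amp.amp_inj (e1.trans H333.Amp.amp_zero.symm)
  · exact SD.X.unamp_commute (Q := Q) (h1 a b f g)
  · exact SD.X.unamp_commute (Q := Q) (h2 a l f g)
  · exact SD.X.unamp_commute (Q := Q) (h3 l l' f g)

end Vale.Agent.P092.SDT.U
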