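import Vale.Agent.P092.H458.T.HalfR
import Vale.Agent.P092.SDT.UQp
import Vale.Agent.P092.SDT.UCls
import Vale.Agent.P092.H252.DU.Main

/-!
P092, D-ULTRA, all amplifications (helper958): every ICC lattice of `SL_3(k)`, `k` a nonarchimedean
local field of any characteristic.
-/

set_option linter.all false

open scoped InnerProductSpace ENNReal LinearAlgebra.Projectivization ZeroAtInfty
open Filter Topology ContinuousLinearMap MeasureTheory TopologicalSpace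

namespace Vale.Agent.P092.SDT.U

open Vale.Agent.P092.SR (Tri)
open Vale.Agent.P092.SD Vale.Agent.P092.H160 Vale.Agent.P092.H103 Vale.Agent.P092.H962
open Vale.Agent.P092.H85 (cdat)
open Vale.Agent.P092.H34 Vale.Agent.P092.H34.Ind
open Vale.Agent.P092.H34.AmpE (nrm)
open Vale.Agent.P092.RC (PG cj)
open Vale.Agent.P092.H368.SN (md)
open Vale.Agent.P092.H933 (LocK)

section leg

variable {k : Type} [NontriviallyNormedField k] [ProperSpace k] [IsUltrametricDist k]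
  [MeasurableSpace k] [BorelSpace k] {μ : Measure k} [μ.IsAddHaarMeasure]
  [LocallyCompactSpace (G3 k)] [SecondCountableTopology (G3 k)] [MeasurableSpace (G3 k)]
  [BorelSpace (G3 k)] {Γ : Subgroup (G3 k)} [DiscreteTopology Γ] [Countable Γ]
  [MeasurableSpace (G3 k ⧸ Γ)] [BorelSpace (G3 k ⧸ Γ)] {ν : Measure (G3 k ⧸ Γ)}
  [IsProbabilityMeasure ν] (hν : ∀ g : G3 k, ν.map (fun x => g • x) = ν)
  {ℋ : Type} [NormedAddCommGroup ℋ] [InnerProductSpace ℂ ℋ] [CompleteSpace ℋ]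
  {V R₁ R₂ : Γ →* (ℋ →L[ℂ] ℋ)} {ι : Type} [Fintype ι] {ξ : ι → ℋ} {s : ℋ →L[ℂ] ℋ}

theorem img_U (hs : s * s = 1) (ha : adjoint s = s) (s2 : ∀ g, s * R₂ g = R₁ g * s) :
    cj (flS (cdat ν hν) s hs ha) ''
      (Xset (cdat ν hν) ℋ ∪ Set.range (Ind.lam (cdat ν hν) R₂)) =
      Xset (cdat ν hν) ℋ ∪ Set.range (Ind.lam (cdat ν hν) R₁) :=
  (Set.image_union _ _ _).trans (congrArg₂ (· ∪ ·)
    (cj_image (X := Xset (cdat ν hν) ℋ) (cdat ν hν) hs ha fun T hT => hT)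
    (cj_range (cdat ν hν) hs ha s2))

/-- **One leg gives the overlap**, any fibre with a flip. -/
theorem over_of_legU (hs : s * s = 1) (ha : adjoint s = s) (sV : ∀ v, s * V v = V v * s)
    (s1 : ∀ g, s * R₁ g = R₂ g * s) (s2 : ∀ g, s * R₂ g = R₁ g * s) (hT : Tri V R₁ R₂ ξ)
    (hicc : ∀ g : Γ, g ≠ 1 → Set.Infinite {y : Γ | ∃ h, y = h * g * h⁻¹})
    {w : kˣ} {m : Set Γ → (Lp ℋ 2 (cdat ν hν).μ →L[ℂ] Lp ℋ 2 (cdat ν hν).μ)} {q : Γ →* G3 k}
    {E F : PP k → (CP k →⋆ₐ[ℂ] (Lp ℋ 2 (cdat ν hν).μ →L[ℂ] Lp ℋ 2 (cdat ν hν).μ))}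
    (hl : LegF μ w (Ind.pi (cdat ν hν) (V := V) hT.adjV) (Ind.lam (cdat ν hν) R₁)
      (Xset (cdat ν hν) ℋ ∪ Set.range (Ind.lam (cdat ν hν) R₂)) (nrm hν ξ) m q E F) :
    H264.Amp.Over V R₁ R₂ := by
  have hk : LocK k := .ultra inferInstance
  obtain ⟨hq, c1, c2, c3⟩ := legCommU hl
  obtain ⟨σ, Q, hQ⟩ := clsN3F hk hl hq c1 c2 c3
  obtain ⟨I, hI, ⟨b⟩⟩ := H264.Amp.exists_basis (H264.Amp.pars_of_tri hT)
  have h1 : ∀ g, cj (flS (cdat ν hν) s hs ha) (Ind.pi (cdat ν hν) (V := V) hT.adjV g) =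
      Ind.pi (cdat ν hν) (V := V) hT.adjV g := fun g => cj_pi (cdat ν hν) hs ha hT.adjV sV g
  have h2 : ∀ g, cj (flS (cdat ν hν) s hs ha) (Ind.lam (cdat ν hν) R₁ g) =
      Ind.lam (cdat ν hν) R₂ g := fun g => cj_lam (cdat ν hν) hs ha s1 g
  obtain ⟨q1, q2, hc⟩ := two_legs hk h1 h2 (img_U hν hs ha s2) hl.pic (tvf_tri hν hT.adjV b hT) hl.disc hQ
  haveI : LocallyCompactSpace (PG k 3) := H252.DU.lc_pg k
  haveI : T2Space (PG k 3) := H200.Coc.t2_pg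
  exact H264.Amp.over_of_legs hν hT (X := Xset (cdat ν hν) ℋ) (fun S hS => ⟨S, hS, rfl⟩)
    (q1.cleg hicc hl.inj hl.disc) (q2.cleg hicc hl.inj hl.disc) hc

end leg

section core

variable {k : Type} [NontriviallyNormedField k] [ProperSpace k] [IsUltrametricDist k]

/-- **All amplifications over `k`**, if `md w ≤ ‖w‖ < 1` for some `w`. -/
theorem coreU {w : kˣ} (hw : ‖(w : k)‖ < 1) (hm : md w ≤ ‖(w : k)‖)
    (Γ : Subgroup (G3 k)) (hΓ : H515.St.IsLattice Γ)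
    (hicc : ∀ g : Γ, g ≠ 1 → Set.Infinite {y : Γ | ∃ h, y = h * g * h⁻¹}) :
    SR.St.SuperAll Γ := by
  intro Λ _ _ hΛ n p hpj θ
  letI : MeasurableSpace k := borel k
  haveI : BorelSpace k := ⟨rfl⟩
  haveI h1 : LocallyCompactSpace (G3 k) := H303.locallyCompact_SL
  haveI h2 : SecondCountableTopology (G3 k) := H303.secondCountable_SL
  letI : MeasurableSpace (G3 k) := borel _
  haveI : BorelSpace (G3 k) := ⟨rfl⟩
  haveI hd : DiscreteTopology Γ := hΓ.disc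
  haveI hc : Countable Γ := H790.countable_of_discrete (E := G3 k) Γ
  letI : MeasurableSpace (G3 k ⧸ Γ) := borel _
  haveI : BorelSpace (G3 k ⧸ Γ) := ⟨rfl⟩
  obtain ⟨ν, hP', hν⟩ := H515.IsLattice.exists_prob (Λ := Γ) ⟨hΓ.disc, hΓ.covol⟩
  have hα : AF (H103.alf θ) := H103.af_of hicc hpj θ
  obtain ⟨n', ξ, hT, q, E, F, -, hl⟩ := H458.HalfT.leg_loc (μ := (Measure.addHaar : Measure k)) hν
    hicc hΛ hα (.ultra inferInstance) hw hm
  exact H264.Amp.canonM_of_over hicc hΛ hpj θ rfl hα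
    (over_of_legU hν (sT_sq hα) (sT_adj hα) (sT_V hα) (sT_A hα) (sT_B hα) hT hicc hl)

end core

/-- **All amplifications, every ICC lattice of `SL_3(k)`, `k` any nonarchimedean local field.** -/
theorem na_superAll (Γ : Type) [Group Γ] (hΓ : H252.DU.NaLattice Γ) : SR.St.SuperAll Γ := by
  obtain ⟨hicc, k, _, i, _, _, hi, hl⟩ := hΓ
  obtain ⟨k', _, _, _, w, i', hw, hm, hi', hl'⟩ := H252.DU.exists_norm 3 i hi hl
  exact H58.superAll_equiv (MonoidHom.ofInjective hi') (coreU hw hm i'.range hl'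
    (H133.icc_equiv (MonoidHom.ofInjective hi') hicc))

end Vale.Agent.P092.SDT.U
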